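import Vale.Agent.P127.Stk.LibDom
import Vale.Agent.P127.U.Pin

/-!
# P127 / U : nonatomic blocks (helper736)

`cp P Y F ω` the conditional probability of the value of `Y` given `F`.

* `hc_le_surp` : `H(Y | F) ≤ log 2 + log (1/a) + P(cp ≤ a) log N` for `N` values.
* `choose` : pigeonhole (probabilities and costs).
* `exists_block` : one block `b` with `P(cp (Y b) (F b) ≤ a) ≥ q/2` and small cost.
* `surp_le`, `surp_near` : if `C` is a function of `F`, then
  `P(cp ≤ a, |Y - y| ≤ 1, C = c) ≤ 3 a P(C = c)`.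
* `cond_far` : `P(|Y - y| ≥ 2 | C = c) ≥ P(cp ≤ a | C = c) - 3 a`.
* `on_cond_small` : under `P(. | E)` the event `{P(E | C) ≤ κ}` has probability `≤ κ / P(E)`.
-/

set_option autoImplicit false

namespace Vale.Agent.P127.U.Nonat

open Finset Vale.Agent.P127 Vale.Agent.P127.Stk

variable {Ω : Type} [Fintype Ω] {S T V : Type*}

/-- the conditional probability of the value of `Y` given the value of `F` -/
noncomputable def cp (P : Law Ω) (Y : Ω → S) (F : Ω → T) (ω : Ω) : ℝ :=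
  P.pr (fun ω => (Y ω, F ω)) (Y ω, F ω) / P.pr F (F ω)

theorem cp_nonneg (P : Law Ω) (Y : Ω → S) (F : Ω → T) (ω : Ω) : 0 ≤ cp P Y F ω :=
  div_nonneg (P.pr_nonneg _ _) (P.pr_nonneg _ _)

/-- entropy and surprisal -/
theorem hc_le_surp (P : Law Ω) (Y : Ω → S) (F : Ω → T) (N : ℕ) {a : ℝ} (ha : 0 < a) (ha1 : a ≤ 1)
    (hN : ∃ G : Finset S, G.card ≤ N ∧ ∀ ω, 0 < P.w ω → Y ω ∈ G) :
    hc P Y F ≤ Real.log 2 + Real.log (1 / a) + prE P (fun ω => cp P Y F ω ≤ a) * Real.log N := by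
  classical
  have h1a : 1 ≤ 1 / a := by rwa [le_div_iff₀ ha, one_mul]
  have hfl : 1 ≤ ⌊1 / a⌋₊ := Nat.le_floor (by exact_mod_cast h1a)
  have h1 := hc_le_exc P (fun ω => cp P Y F ω ≤ a) Y F N ⌊1 / a⌋₊ hfl hN (by
    intro ω hω hE
    set A : Finset Ω := univ.filter fun ω' => 0 < P.w ω' ∧ ¬ cp P Y F ω' ≤ a ∧ F ω' = F ω
    refine ⟨A.image Y, ?_, fun ω' hω' hE' e => mem_image.2 ⟨ω', by simp [A, hω', not_le.1 hE', e], rfl⟩⟩
    have hF : 0 < P.pr F (F ω) := P.pr_pos F hω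
    have h2 := P.sum_pr_pair_le Y F (F ω) (A.image Y)
    have h3 : ∑ _x ∈ A.image Y, a * P.pr F (F ω) ≤
        ∑ x ∈ A.image Y, P.pr (fun ω => (Y ω, F ω)) (x, F ω) := by
      refine Finset.sum_le_sum fun x hx => ?_
      obtain ⟨ω', hω', rfl⟩ := mem_image.1 hx
      simp only [A, mem_filter, mem_univ, true_and] at hω'
      obtain ⟨g1, g2, g3⟩ := hω'
      unfold cp at g2
      rw [not_le, lt_div_iff₀ (P.pr_pos F g1), g3] at g2
      exact g2.le
    rw [Finset.sum_const, nsmul_eq_mul] at h3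
    have h4 : ((A.image Y).card : ℝ) * (a * P.pr F (F ω)) ≤ P.pr F (F ω) := h3.trans h2
    have h5 : ((A.image Y).card : ℝ) * a ≤ 1 := by
      have : ((A.image Y).card : ℝ) * a * P.pr F (F ω) ≤ 1 * P.pr F (F ω) := by
        rw [one_mul, mul_assoc]
        exact h4
      exact le_of_mul_le_mul_right this hF
    refine Nat.le_floor ?_
    rw [le_div_iff₀ ha]
    exact h5)
  have h6 : Real.log (⌊1 / a⌋₊ : ℝ) ≤ Real.log (1 / a) :=
    Real.log_le_log (by exact_mod_cast hfl) (Nat.floor_le (by positivity))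
  linarith

/-- pigeonhole: probabilities with average `≥ q` and costs -/
theorem choose (B : ℕ) (p c : ℕ → ℝ) {q : ℝ} (hq : 0 < q) (hB : 0 < B)
    (hp1 : ∀ b, b < B → p b ≤ 1) (hc0 : ∀ b, b < B → 0 ≤ c b)
    (h : q * B ≤ ∑ b ∈ range B, p b) :
    ∃ b, b < B ∧ q / 2 ≤ p b ∧ c b ≤ 2 / (q * B) * ∑ b ∈ range B, c b := by
  classical
  by_contra hcon
  push Not at hcon
  have hB' : (0:ℝ) < B := by exact_mod_cast hB
  set G : Finset ℕ := (range B).filter fun b => q / 2 ≤ p b with hG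
  have h1 : ∑ b ∈ range B, p b ≤ G.card + B * (q / 2) := by
    rw [← Finset.sum_filter_add_sum_filter_not (range B) (fun b => q / 2 ≤ p b)]
    have a1 : ∑ b ∈ (range B).filter (fun b => q / 2 ≤ p b), p b ≤ G.card := by
      have : ∑ b ∈ G, p b ≤ ∑ _b ∈ G, (1:ℝ) := Finset.sum_le_sum fun b hb => by
        rw [hG, mem_filter, mem_range] at hb
        exact hp1 b hb.1
      simpa using this
    have a2 : ∑ b ∈ (range B).filter (fun b => ¬ q / 2 ≤ p b), p b ≤ B * (q / 2) := by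
      have b1 : ∑ b ∈ (range B).filter (fun b => ¬ q / 2 ≤ p b), p b ≤
          ∑ _b ∈ (range B).filter (fun b => ¬ q / 2 ≤ p b), q / 2 :=
        Finset.sum_le_sum fun b hb => by
          rw [mem_filter] at hb
          exact (not_le.1 hb.2).le
      have b2 : ∑ _b ∈ (range B).filter (fun b => ¬ q / 2 ≤ p b), q / 2 ≤
          ∑ _b ∈ range B, q / 2 :=
        Finset.sum_le_sum_of_subset_of_nonneg (Finset.filter_subset _ _) fun _ _ _ => by linarith
      have b3 : ∑ _b ∈ range B, q / 2 = B * (q / 2) := by simp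
      linarith
    linarith
  have h2 : q / 2 * B ≤ G.card := by linarith
  have hGpos : (0:ℝ) < G.card := lt_of_lt_of_le (by positivity) h2
  have hGne : G.Nonempty := by
    rw [← Finset.card_pos]
    exact_mod_cast hGpos
  have h3 : ∑ _b ∈ G, 2 / (q * B) * ∑ b ∈ range B, c b < ∑ b ∈ G, c b :=
    Finset.sum_lt_sum_of_nonempty hGne fun b hb => by
      rw [hG, mem_filter, mem_range] at hb
      exact hcon b hb.1 hb.2
  have h4 : ∑ b ∈ G, c b ≤ ∑ b ∈ range B, c b :=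
    Finset.sum_le_sum_of_subset_of_nonneg (Finset.filter_subset _ _) fun b hb _ =>
      hc0 b (mem_range.1 hb)
  rw [Finset.sum_const, nsmul_eq_mul] at h3
  have hS : 0 ≤ ∑ b ∈ range B, c b := Finset.sum_nonneg fun b hb => hc0 b (mem_range.1 hb)
  have h5 : ∑ b ∈ range B, c b ≤ G.card * (2 / (q * B) * ∑ b ∈ range B, c b) := by
    have : (1:ℝ) ≤ G.card * (2 / (q * B)) := by
      rw [mul_div_assoc', le_div_iff₀ (by positivity)]
      linarith
    calc ∑ b ∈ range B, c b = 1 * ∑ b ∈ range B, c b := (one_mul _).symm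
      _ ≤ (G.card * (2 / (q * B))) * ∑ b ∈ range B, c b := mul_le_mul_of_nonneg_right this hS
      _ = _ := by ring
  linarith

/-- one nonatomic block with small cost -/
theorem exists_block (P : Law Ω) (B N : ℕ) (Y : ℕ → Ω → S) (F : ℕ → Ω → T) (c : ℕ → ℝ) {a q : ℝ}
    (ha : 0 < a) (ha1 : a ≤ 1) (hq : 0 < q) (hB : 0 < B)
    (hN : ∀ b, b < B → ∃ G : Finset S, G.card ≤ N ∧ ∀ ω, 0 < P.w ω → Y b ω ∈ G)
    (hN1 : 1 < N) (hc0 : ∀ b, b < B → 0 ≤ c b)
    (h : (q + (Real.log 2 + Real.log (1 / a)) / Real.log N) * B * Real.log N ≤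
      ∑ b ∈ range B, hc P (Y b) (F b)) :
    ∃ b, b < B ∧ q / 2 ≤ prE P (fun ω => cp P (Y b) (F b) ω ≤ a) ∧
      c b ≤ 2 / (q * B) * ∑ b ∈ range B, c b := by
  have hlN : 0 < Real.log N := Real.log_pos (by exact_mod_cast hN1)
  refine choose B (fun b => prE P fun ω => cp P (Y b) (F b) ω ≤ a) c hq hB
    (fun b _ => prE_le_one _ _) hc0 ?_
  have h1 : ∑ b ∈ range B, hc P (Y b) (F b) ≤ ∑ b ∈ range B,
      (Real.log 2 + Real.log (1 / a) + prE P (fun ω => cp P (Y b) (F b) ω ≤ a) * Real.log N) :=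
    Finset.sum_le_sum fun b hb => hc_le_surp P (Y b) (F b) N ha ha1 (hN b (mem_range.1 hb))
  rw [Finset.sum_add_distrib, Finset.sum_const, card_range, nsmul_eq_mul, ← Finset.sum_mul] at h1
  have h2 : (q + (Real.log 2 + Real.log (1 / a)) / Real.log N) * B * Real.log N =
      q * B * Real.log N + B * (Real.log 2 + Real.log (1 / a)) := by
    field_simp
  have h3 : q * B * Real.log N ≤
      (∑ b ∈ range B, prE P fun ω => cp P (Y b) (F b) ω ≤ a) * Real.log N := by linarith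
  exact le_of_mul_le_mul_right h3 hlN

theorem prE_mono_set (P : Law Ω) {E E' : Ω → Prop} (h : ∀ ω, 0 < P.w ω → E ω → E' ω) :
    prE P E ≤ prE P E' := by
  classical
  unfold prE
  rw [Finset.sum_filter, Finset.sum_filter]
  refine Finset.sum_le_sum fun ω _ => ?_
  rcases (P.nn ω).eq_or_lt with h0 | h0
  · rw [← h0]
    split_ifs <;> exact le_rfl
  · by_cases hE : E ω
    · rw [if_pos hE, if_pos (h ω h0 hE)]
    · rw [if_neg hE]
      split_ifs
      · exact h0.le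
      · exact le_rfl

theorem prE_or_le (P : Law Ω) (E E' : Ω → Prop) :
    prE P (fun ω => E ω ∨ E' ω) ≤ prE P E + prE P E' := by
  classical
  unfold prE
  rw [Finset.sum_filter, Finset.sum_filter, Finset.sum_filter, ← Finset.sum_add_distrib]
  refine Finset.sum_le_sum fun ω _ => ?_
  have := P.nn ω
  by_cases hE : E ω
  · rw [if_pos (Or.inl hE), if_pos hE]
    split_ifs <;> linarith
  · by_cases hE' : E' ω
    · rw [if_pos (Or.inr hE'), if_neg hE, if_pos hE']
      linarith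
    · rw [if_neg (by tauto), if_neg hE, if_neg hE']
      linarith

/-- atoms of the nonatomic part given a coarser variable -/
theorem surp_le (P : Law Ω) (Y : Ω → S) (F : Ω → T) (C : Ω → V) {a : ℝ} (ha : 0 ≤ a)
    (hf : ∀ ω ω', 0 < P.w ω → 0 < P.w ω' → F ω = F ω' → C ω = C ω') (y : S) (c : V) :
    prE P (fun ω => cp P Y F ω ≤ a ∧ Y ω = y ∧ C ω = c) ≤ a * P.pr C c := by
  classical
  set A : Finset Ω := univ.filter fun ω => 0 < P.w ω ∧ cp P Y F ω ≤ a ∧ Y ω = y ∧ C ω = c with hA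
  set K : Finset T := A.image F with hK
  have h1 : prE P (fun ω => cp P Y F ω ≤ a ∧ Y ω = y ∧ C ω = c) = ∑ ω ∈ A, P.w ω := by
    unfold prE
    symm
    refine Finset.sum_subset ?_ ?_
    · intro ω hω
      simp only [hA, mem_filter, mem_univ, true_and] at hω ⊢
      exact hω.2
    · intro ω hω hω'
      simp only [hA, mem_filter, mem_univ, true_and] at hω hω'
      rcases (P.nn ω).eq_or_lt with h0 | h0
      · exact h0.symm
      · exact absurd ⟨h0, hω⟩ hω'
  have h2 : ∑ ω ∈ A, P.w ω = ∑ f ∈ K, ∑ ω ∈ A with F ω = f, P.w ω :=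
    (Finset.sum_fiberwise_of_maps_to (fun ω hω => mem_image_of_mem F hω) _).symm
  have h3 : ∀ f ∈ K, ∑ ω ∈ A with F ω = f, P.w ω ≤ a * P.pr F f := by
    intro f hf'
    obtain ⟨ω0, h0, rfl⟩ := mem_image.1 hf'
    simp only [hA, mem_filter, mem_univ, true_and] at h0
    obtain ⟨g1, g2, g3, g4⟩ := h0
    have g5 : P.pr (fun ω => (Y ω, F ω)) (Y ω0, F ω0) ≤ a * P.pr F (F ω0) := by
      unfold cp at g2
      rwa [div_le_iff₀ (P.pr_pos F g1)] at g2
    refine le_trans ?_ g5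
    unfold Law.pr
    refine Finset.sum_le_sum_of_subset_of_nonneg ?_ fun ω _ _ => P.nn ω
    intro ω hω
    simp only [hA, mem_filter, mem_univ, true_and] at hω ⊢
    rw [hω.1.2.2.1, hω.2, g3]
  have h4 : ∑ f ∈ K, P.pr F f ≤ P.pr C c := by
    have e1 : ∑ f ∈ K, P.pr F f = ∑ ω ∈ univ.filter (fun ω => F ω ∈ K), P.w ω := by
      have := Finset.sum_fiberwise_of_maps_to (s := univ.filter fun ω => F ω ∈ K) (t := K)
        (g := F) (fun ω hω => by simpa using hω) P.w
      rw [← this]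
      refine Finset.sum_congr rfl fun f hf' => ?_
      unfold Law.pr
      refine Finset.sum_congr ?_ fun _ _ => rfl
      ext ω
      simp only [mem_filter, mem_univ, true_and]
      constructor
      · intro e
        exact ⟨e ▸ hf', e⟩
      · exact fun e => e.2
    rw [e1]
    unfold Law.pr
    rw [Finset.sum_filter, Finset.sum_filter]
    refine Finset.sum_le_sum fun ω _ => ?_
    rcases (P.nn ω).eq_or_lt with h0 | h0
    · rw [← h0]
      split_ifs <;> exact le_rfl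
    · by_cases hω : F ω ∈ K
      · obtain ⟨ω0, h0', e⟩ := mem_image.1 hω
        simp only [hA, mem_filter, mem_univ, true_and] at h0'
        have : C ω = c := by
          rw [← h0'.2.2.2]
          exact hf ω ω0 h0 h0'.1 e.symm
        rw [if_pos hω, if_pos this]
      · rw [if_neg hω]
        split_ifs
        · exact h0.le
        · exact le_rfl
  rw [h1, h2]
  calc ∑ f ∈ K, ∑ ω ∈ A with F ω = f, P.w ω ≤ ∑ f ∈ K, a * P.pr F f := Finset.sum_le_sum h3
    _ = a * ∑ f ∈ K, P.pr F f := by rw [Finset.mul_sum]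
    _ ≤ a * P.pr C c := mul_le_mul_of_nonneg_left h4 ha

/-- neighbouring values -/
theorem surp_near (P : Law Ω) (Y : Ω → ℤ) (F : Ω → T) (C : Ω → V) {a : ℝ} (ha : 0 ≤ a)
    (hf : ∀ ω ω', 0 < P.w ω → 0 < P.w ω' → F ω = F ω' → C ω = C ω') (y : ℤ) (c : V) :
    prE P (fun ω => cp P Y F ω ≤ a ∧ |Y ω - y| ≤ 1 ∧ C ω = c) ≤ 3 * a * P.pr C c := by
  have h1 := surp_le P Y F C ha hf (y - 1) c
  have h2 := surp_le P Y F C ha hf y c
  have h3 := surp_le P Y F C ha hf (y + 1) c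
  have h4 : prE P (fun ω => cp P Y F ω ≤ a ∧ |Y ω - y| ≤ 1 ∧ C ω = c) ≤
      prE P (fun ω => (cp P Y F ω ≤ a ∧ Y ω = y - 1 ∧ C ω = c) ∨
        ((cp P Y F ω ≤ a ∧ Y ω = y ∧ C ω = c) ∨ (cp P Y F ω ≤ a ∧ Y ω = y + 1 ∧ C ω = c))) :=
    prE_mono_set P fun ω _ hω => by
      obtain ⟨g1, g2, g3⟩ := hω
      rw [abs_le] at g2
      have : Y ω = y - 1 ∨ Y ω = y ∨ Y ω = y + 1 := by omega
      rcases this with e | e | e
      · exact Or.inl ⟨g1, e, g3⟩
      · exact Or.inr (Or.inl ⟨g1, e, g3⟩)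
      · exact Or.inr (Or.inr ⟨g1, e, g3⟩)
  have h5 := prE_or_le P (fun ω => cp P Y F ω ≤ a ∧ Y ω = y - 1 ∧ C ω = c)
    (fun ω => (cp P Y F ω ≤ a ∧ Y ω = y ∧ C ω = c) ∨ (cp P Y F ω ≤ a ∧ Y ω = y + 1 ∧ C ω = c))
  have h6 := prE_or_le P (fun ω => cp P Y F ω ≤ a ∧ Y ω = y ∧ C ω = c)
    (fun ω => cp P Y F ω ≤ a ∧ Y ω = y + 1 ∧ C ω = c)
  linarith

/-- probability of an event under a conditional law -/
theorem prE_cond (P : Law Ω) (C : Ω → V) (c : V) (hc : 0 < P.pr C c) (E : Ω → Prop) :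
    prE (P.cond C c) E = prE P (fun ω => E ω ∧ C ω = c) / P.pr C c := by
  classical
  unfold prE
  rw [Finset.sum_div, Finset.sum_filter, Finset.sum_filter]
  refine Finset.sum_congr rfl fun ω _ => ?_
  rw [P.cond_w C c hc]
  by_cases h1 : E ω
  · by_cases h2 : C ω = c
    · simp [h1, h2]
    · simp [h1, h2]
  · simp [h1]

/-- the values of a nonatomic variable are far from any given value with positive probability -/
theorem cond_far (P : Law Ω) (Y : Ω → ℤ) (F : Ω → T) (C : Ω → V) {a : ℝ} (ha : 0 ≤ a)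
    (hf : ∀ ω ω', 0 < P.w ω → 0 < P.w ω' → F ω = F ω' → C ω = C ω') (y : ℤ) (c : V)
    (hc : 0 < P.pr C c) :
    prE (P.cond C c) (fun ω => cp P Y F ω ≤ a) - 3 * a ≤
      prE (P.cond C c) (fun ω => cp P Y F ω ≤ a ∧ 2 ≤ |Y ω - y|) := by
  have h1 := surp_near P Y F C ha hf y c
  have h2 : prE (P.cond C c) (fun ω => cp P Y F ω ≤ a) ≤
      prE (P.cond C c) (fun ω => (cp P Y F ω ≤ a ∧ 2 ≤ |Y ω - y|) ∨
        (cp P Y F ω ≤ a ∧ |Y ω - y| ≤ 1)) := prE_mono_set _ fun ω _ hω => by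
    rcases le_or_gt (|Y ω - y|) 1 with h | h
    · exact Or.inr ⟨hω, h⟩
    · exact Or.inl ⟨hω, by omega⟩
  have h3 := prE_or_le (P.cond C c) (fun ω => cp P Y F ω ≤ a ∧ 2 ≤ |Y ω - y|)
    (fun ω => cp P Y F ω ≤ a ∧ |Y ω - y| ≤ 1)
  have h4 : prE (P.cond C c) (fun ω => cp P Y F ω ≤ a ∧ |Y ω - y| ≤ 1) ≤ 3 * a := by
    rw [prE_cond P C c hc, div_le_iff₀ hc]
    refine le_trans (le_of_eq ?_) h1
    congr 1
    funext ω
    simp only [and_assoc]
  linarith

/-- under the conditional law the conditional probability of the event is rarely small -/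
theorem on_cond_small (P : Law Ω) (C : Ω → V) (E : Ω → Prop) {κ : ℝ} (hκ : 0 ≤ κ)
    (hE : 0 < prE P E) :
    prE (on P E) (fun ω => prE (P.cond C (C ω)) E ≤ κ) ≤ κ / prE P E := by
  classical
  have h1 : prE (on P E) (fun ω => prE (P.cond C (C ω)) E ≤ κ) =
      prE P (fun ω => E ω ∧ prE (P.cond C (C ω)) E ≤ κ) / prE P E := by
    unfold prE
    rw [Finset.sum_div, Finset.sum_filter, Finset.sum_filter]
    refine Finset.sum_congr rfl fun ω _ => ?_
    rw [on_w hE]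
    by_cases g1 : E ω
    · simp only [g1, true_and, if_true]
      rfl
    · simp [g1]
  rw [h1]
  refine div_le_div_of_nonneg_right ?_ hE.le
  -- sum over the values of `C`
  set A : Finset Ω := univ.filter fun ω => 0 < P.w ω ∧ prE (P.cond C (C ω)) E ≤ κ with hA
  set K : Finset V := A.image C with hK
  have h2 : prE P (fun ω => E ω ∧ prE (P.cond C (C ω)) E ≤ κ) =
      ∑ ω ∈ A with E ω, P.w ω := by
    unfold prE
    symm
    refine Finset.sum_subset ?_ ?_
    · intro ω hω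
      simp only [hA, mem_filter, mem_univ, true_and] at hω ⊢
      exact ⟨hω.2, hω.1.2⟩
    · intro ω hω hω'
      simp only [hA, mem_filter, mem_univ, true_and] at hω hω'
      rcases (P.nn ω).eq_or_lt with h0 | h0
      · exact h0.symm
      · exact absurd ⟨⟨h0, hω.2⟩, hω.1⟩ hω'
  have h3 : ∑ ω ∈ A with E ω, P.w ω = ∑ c ∈ K, ∑ ω ∈ (A.filter E) with C ω = c, P.w ω :=
    (Finset.sum_fiberwise_of_maps_to
      (fun ω hω => mem_image_of_mem C (Finset.mem_of_mem_filter ω hω)) _).symm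
  have h4 : ∀ c ∈ K, ∑ ω ∈ (A.filter E) with C ω = c, P.w ω ≤ κ * P.pr C c := by
    intro c hcK
    obtain ⟨ω0, h0, rfl⟩ := mem_image.1 hcK
    simp only [hA, mem_filter, mem_univ, true_and] at h0
    obtain ⟨g1, g2⟩ := h0
    have g3 : 0 < P.pr C (C ω0) := P.pr_pos C g1
    rw [prE_cond P C _ g3, div_le_iff₀ g3] at g2
    refine le_trans ?_ g2
    unfold prE
    refine Finset.sum_le_sum_of_subset_of_nonneg ?_ fun ω _ _ => P.nn ω
    intro ω hω
    simp only [mem_filter, mem_univ, true_and] at hω ⊢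
    exact ⟨hω.1.2, hω.2⟩
  have h5 : ∑ c ∈ K, P.pr C c ≤ 1 := by
    have e1 := P.sum_pr_image C
    rw [← e1]
    refine Finset.sum_le_sum_of_subset_of_nonneg ?_ fun c _ _ => P.pr_nonneg _ _
    intro c hcK
    obtain ⟨ω0, -, rfl⟩ := mem_image.1 hcK
    exact mem_img.2 ⟨ω0, rfl⟩
  rw [h2, h3]
  calc ∑ c ∈ K, ∑ ω ∈ (A.filter E) with C ω = c, P.w ω ≤ ∑ c ∈ K, κ * P.pr C c :=
        Finset.sum_le_sum h4
    _ = κ * ∑ c ∈ K, P.pr C c := by rw [Finset.mul_sum]
    _ ≤ κ * 1 := mul_le_mul_of_nonneg_left h5 hκ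
    _ = κ := mul_one _

end Vale.Agent.P127.U.Nonat
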