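import Vale.Agent.P127.U.H514.RStar
import Vale.Agent.P127.U.PathA

/-!
# P127 / U / H736 : long runs of r-steps (helper736)

`RISE`.  The path of blocks is cut into the windows `[lo k, lo (k + 1))`, `lo k` the `k`-th a-step (then
the end `n`), that is one a-block followed by `J k = lo (k + 1) - lo k - 1` r-blocks.

* `card_runs_le` : the steps which are followed by `M` r-steps are in windows with `M ≤ J k`.
* `sum_runs_le` : total length of the long runs from the alternative (good or bad) of each window.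
* `colp_shape_le` : collisions given the past and a shape: nonatomicity survives the shape `e` at the
  price `I(T'; e | l, T)`.
-/

set_option autoImplicit false

namespace Vale.Agent.P127.U.Rise

open Finset Vale.Agent.P127 Vale.Agent.P127.Stk Vale.Agent.P127.U.YPat Vale.Agent.P127.U.Nonat

/-! ### Windows -/

/-- starts of the windows : a-steps before `n`, everything from `n` on -/
def wst (a : ℕ → ℕ) (n i : ℕ) : Prop := n ≤ i ∨ a i < a (i + 1)

open Classical in
/-- start of the window `k` -/
noncomputable def lo (a : ℕ → ℕ) (n k : ℕ) : ℕ := Nat.nth (wst a n) k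

open Classical in
/-- number of windows -/
noncomputable def nw (a : ℕ → ℕ) (n : ℕ) : ℕ := Nat.count (wst a n) n

section windows

variable {a : ℕ → ℕ} {n : ℕ}

theorem st_inf : (Set.ofPred (wst a n)).Infinite :=
  Set.infinite_of_forall_exists_gt fun i => ⟨max i n + 1, Or.inl (by omega), by
    have := le_max_left i n
    omega⟩

theorem lo_mono : StrictMono (lo a n) := Nat.nth_strictMono st_inf

theorem lo_st (k : ℕ) : wst a n (lo a n k) := Nat.nth_mem_of_infinite st_inf k

theorem lo_nw : lo a n (nw a n) = n := by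
  classical
  exact Nat.nth_count (p := wst a n) (Or.inl le_rfl)

theorem lo_lt {k : ℕ} (h : k < nw a n) : lo a n k < n := by
  have := lo_mono (a := a) (n := n) h
  rwa [lo_nw] at this

theorem lo_le {k : ℕ} (h : k ≤ nw a n) : lo a n k ≤ n := by
  have := (lo_mono (a := a) (n := n)).monotone h
  rwa [lo_nw] at this

theorem lt_nw {k : ℕ} (h : lo a n k < n) : k < nw a n := by
  by_contra hcon
  have := (lo_mono (a := a) (n := n)).monotone (not_lt.1 hcon)
  rw [lo_nw] at this
  omega

theorem nw_le : nw a n ≤ n := by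
  classical
  exact Nat.count_le _

theorem lo_succ (k : ℕ) : lo a n k < lo a n (k + 1) := lo_mono (Nat.lt_succ_self k)

/-- the starts are a-steps -/
theorem lo_step {k : ℕ} (h : k < nw a n) : a (lo a n k) < a (lo a n k + 1) := by
  have h1 := lo_st (a := a) (n := n) k
  have h2 := lo_lt h
  rcases h1 with h1 | h1
  · omega
  · exact h1

/-- inside a window there is no a-step -/
theorem not_st {k i : ℕ} (h1 : lo a n k < i) (h2 : i < lo a n (k + 1)) : ¬ wst a n i := by
  classical
  intro h
  have h3 : lo a n (Nat.count (wst a n) i) = i := Nat.nth_count h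
  rw [← h3] at h1 h2
  have h4 := lo_mono.lt_iff_lt.1 h1
  have h5 := lo_mono.lt_iff_lt.1 h2
  omega

/-- a step which is not a start is before the first start or in a window -/
theorem mem_win {i : ℕ} (h : ¬ wst a n i) : i < lo a n 0 ∨ ∃ k, lo a n k < i ∧ i < lo a n (k + 1) := by
  classical
  by_cases h0 : Nat.count (wst a n) i = 0
  · left
    by_contra hcon
    have h1 : lo a n 0 ≤ i := not_lt.1 hcon
    have h2 : lo a n 0 ≠ i := fun e => h (e ▸ lo_st 0)
    have h3 : Nat.count (wst a n) (lo a n 0) < Nat.count (wst a n) i :=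
      Nat.count_strict_mono (lo_st 0) (lt_of_le_of_ne h1 h2)
    omega
  · right
    obtain ⟨k, hk⟩ := Nat.exists_eq_succ_of_ne_zero h0
    refine ⟨k, Nat.nth_lt_of_lt_count (by omega), ?_⟩
    by_contra hcon
    have h1 : lo a n (k + 1) ≤ i := not_lt.1 hcon
    have h2 : lo a n (k + 1) ≠ i := fun e => h (e ▸ lo_st (k + 1))
    have h3 : Nat.count (wst a n) (lo a n (k + 1)) < Nat.count (wst a n) i :=
      Nat.count_strict_mono (lo_st (k + 1)) (lt_of_le_of_ne h1 h2)
    have h4 : Nat.count (wst a n) (lo a n (k + 1)) = k + 1 := Nat.count_nth_of_infinite st_inf _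
    omega

/-- number of r-steps of the window -/
noncomputable def len (a : ℕ → ℕ) (n k : ℕ) : ℕ := lo a n (k + 1) - lo a n k - 1

/-- along a window the time does not move after the first step -/
theorem a_const (hmono : ∀ i < n, a i ≤ a (i + 1)) {k : ℕ} (h : k < nw a n) {i : ℕ}
    (h1 : lo a n k < i) (h2 : i ≤ lo a n (k + 1)) : a i = a (lo a n k + 1) := by
  induction i, h1 using Nat.le_induction with
  | base => rfl
  | succ i hi ih =>
    have h3 : i < lo a n (k + 1) := by omega
    rw [← ih (by omega)]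
    have h4 := not_st (show lo a n k < i by omega) h3
    have h5 : lo a n (k + 1) ≤ n := lo_le (by omega)
    have h6 := hmono i (by omega)
    unfold wst at h4
    omega

open Classical in
/-- **the steps which are followed by `M` r-steps** -/
theorem card_runs_le (hmono : ∀ i < n, a i ≤ a (i + 1)) {M : ℕ} (hM : 1 ≤ M) :
    ((range n).filter fun i => a (i + M) = a i).card ≤
      lo a n 0 + M + ∑ k ∈ (range (nw a n)).filter (fun k => M ≤ len a n k), len a n k := by
  classical
  have hmono' : ∀ i j, i ≤ j → j ≤ n → a i ≤ a j := by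
    intro i j hij
    induction j, hij using Nat.le_induction with
    | base => exact fun _ => le_rfl
    | succ j _ ih => exact fun h => (ih (by omega)).trans (hmono j (by omega))
  have hsub : ((range n).filter fun i => a (i + M) = a i) ⊆
      (range (lo a n 0) ∪ Ico (n - M) n) ∪
        ((range (nw a n)).filter (fun k => M ≤ len a n k)).biUnion
          fun k => Ioo (lo a n k) (lo a n (k + 1)) := by
    intro i hi
    simp only [mem_filter, mem_range] at hi
    obtain ⟨hi, e⟩ := hi
    simp only [mem_union, mem_range, mem_Ico, mem_biUnion, mem_filter, mem_Ioo]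
    by_cases h1 : n ≤ i + M
    · left
      right
      omega
    · have h2 : ∀ i', i ≤ i' → i' < i + M → ¬ wst a n i' := by
        intro i' g1 g2 g3
        rcases g3 with g3 | g3
        · omega
        · have g4 := hmono' i i' g1 (by omega)
          have g5 := hmono' (i' + 1) (i + M) (by omega) (by omega)
          omega
      rcases mem_win (h2 i le_rfl (by omega)) with h3 | ⟨k, h3, h4⟩
      · left
        left
        exact h3
      · right
        have h5 : i + M ≤ lo a n (k + 1) := by
          by_contra hcon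
          exact h2 _ h4.le (by omega) (lo_st (k + 1))
        refine ⟨k, ⟨lt_nw (by omega), ?_⟩, h3, h4⟩
        unfold len
        omega
  refine (card_le_card hsub).trans ?_
  refine (card_union_le _ _).trans ?_
  refine Nat.add_le_add ((card_union_le _ _).trans ?_) (card_biUnion_le.trans ?_)
  · rw [card_range, Nat.card_Ico]
    omega
  · refine sum_le_sum fun k _ => ?_
    rw [Nat.card_Ioo]
    unfold len
    exact le_rfl

/-- telescoping -/
theorem sum_win (g : ℕ → ℝ) : ∑ k ∈ range (nw a n), (g (lo a n k) - g (lo a n (k + 1))) =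
    g (lo a n 0) - g n := by
  rw [Finset.sum_range_sub' (fun k => g (lo a n k)), lo_nw]

end windows

/-! ### Total length of the long runs -/

open Classical in
/-- **sum over the windows** : `gap k` defect of the window `k`, `D k` divergence, `N1` the price of
the shapes -/
theorem sum_runs_le {B : ℕ} {gap D : ℕ → ℝ} {J : ℕ → ℕ} {M : ℕ} {Del Dtot S μ cb c1 cL N1 : ℝ}
    (hgap : ∀ k < B, 0 ≤ gap k) (htot : ∑ k ∈ range B, gap k ≤ Del)
    (hD0 : ∀ k < B, 0 ≤ D k) (hD : ∑ k ∈ range B, D k ≤ Dtot)
    (hS : 0 < S) (hμ : 0 < μ) (hcb : 0 < cb) (hN1 : 0 < N1)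
    (hdich : ∀ k < B, M ≤ J k → μ * J k * S ≤ gap k + cL ∨
      cb * J k * S ≤ D k + gap k / N1 + c1)
    (hM1 : 2 * cL ≤ μ * M * S) (hM2 : 2 * c1 ≤ cb * M * S) :
    ∑ k ∈ (range B).filter (fun k => M ≤ J k), (J k : ℝ) ≤
      2 / (μ * S) * Del + 2 / (cb * S) * (Dtot + Del / N1) := by
  have hμS : 0 < μ * S := mul_pos hμ hS
  have hcS : 0 < cb * S := mul_pos hcb hS
  have h1 : ∀ k ∈ (range B).filter (fun k => M ≤ J k),
      (J k : ℝ) ≤ 2 / (μ * S) * gap k + 2 / (cb * S) * (D k + gap k / N1) := by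
    intro k hk
    simp only [mem_filter, mem_range] at hk
    obtain ⟨hk, hM⟩ := hk
    have hM' : (M : ℝ) ≤ J k := by exact_mod_cast hM
    have e1 : 0 ≤ gap k / N1 := div_nonneg (hgap k hk) hN1.le
    have e2 : 0 ≤ 2 / (μ * S) * gap k := mul_nonneg (by positivity) (hgap k hk)
    have e3 : 0 ≤ 2 / (cb * S) * (D k + gap k / N1) :=
      mul_nonneg (by positivity) (add_nonneg (hD0 k hk) e1)
    rcases hdich k hk hM with h | h
    · have h2 : μ * M * S ≤ μ * J k * S :=
        mul_le_mul_of_nonneg_right (mul_le_mul_of_nonneg_left hM' hμ.le) hS.le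
      have h3 : (J k : ℝ) ≤ 2 / (μ * S) * gap k := by
        rw [div_mul_eq_mul_div, le_div_iff₀ hμS]
        linarith
      linarith
    · have h2 : cb * M * S ≤ cb * J k * S :=
        mul_le_mul_of_nonneg_right (mul_le_mul_of_nonneg_left hM' hcb.le) hS.le
      have h3 : (J k : ℝ) ≤ 2 / (cb * S) * (D k + gap k / N1) := by
        rw [div_mul_eq_mul_div, le_div_iff₀ hcS]
        linarith
      linarith
  refine (sum_le_sum h1).trans ?_
  refine (sum_le_sum_of_subset_of_nonneg (filter_subset _ _) (fun k hk _ => ?_)).trans ?_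
  · have hk' := mem_range.1 hk
    exact add_nonneg (mul_nonneg (by positivity) (hgap k hk'))
      (mul_nonneg (by positivity) (add_nonneg (hD0 k hk') (div_nonneg (hgap k hk') hN1.le)))
  · rw [sum_add_distrib, ← mul_sum, ← mul_sum, sum_add_distrib, ← sum_div]
    have h4 : (∑ k ∈ range B, gap k) / N1 ≤ Del / N1 := div_le_div_of_nonneg_right htot hN1.le
    have h5 : 2 / (μ * S) * ∑ k ∈ range B, gap k ≤ 2 / (μ * S) * Del :=
      mul_le_mul_of_nonneg_left htot (by positivity)
    have h6 : 2 / (cb * S) * (∑ k ∈ range B, D k + (∑ k ∈ range B, gap k) / N1) ≤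
        2 / (cb * S) * (Dtot + Del / N1) :=
      mul_le_mul_of_nonneg_left (by linarith) (by positivity)
    linarith

/-! ### Nonatomicity and shapes -/

section shapes

variable {Ω Ω' : Type} [Fintype Ω] [Fintype Ω'] {S T T' U : Type*}

theorem ex_of_law (R : Law Ω') (Q : Law Ω) (π : Ω' → Ω) (h : ∀ ω, R.pr π ω = Q.w ω) (f : Ω → ℝ) :
    R.ex (fun ω => f (π ω)) = Q.ex f := by
  classical
  rw [R.ex_comp π f]
  unfold Law.ex
  refine (Finset.sum_subset (Finset.subset_univ _) fun ω _ hω => ?_).trans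
    (Finset.sum_congr rfl fun ω _ => by rw [h ω])
  have h1 : R.pr π ω = 0 := by
    unfold Law.pr
    refine Finset.sum_eq_zero fun ω' hω' => ?_
    simp only [Finset.mem_filter] at hω'
    exact absurd (mem_img.2 ⟨ω', hω'.2⟩) hω
  rw [h1, zero_mul]

theorem supp_of_law (R : Law Ω') (Q : Law Ω) (π : Ω' → Ω) (h : ∀ ω, R.pr π ω = Q.w ω) {ω : Ω'}
    (hω : 0 < R.w ω) : 0 < Q.w (π ω) := by
  rw [← h]
  exact R.pr_pos π hω

/-- **collisions given the past and a shape** -/
theorem colp_shape_le {P Q : Law Ω} (hQP : ∀ ω, 0 < Q.w ω → 0 < P.w ω) (X : Ω → S) (H : Ω → T)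
    (H' : Ω → T') (R : Law Ω') (π : Ω' → Ω) (hR : ∀ ω, R.pr π ω = Q.w ω) (e : Ω' → U)
    (hX : ∀ ω ω', 0 < Q.w ω → 0 < Q.w ω' → H' ω = H' ω' → X ω = X ω' ∧ H ω = H ω')
    {thr ε : ℝ} (ht : 0 < thr) (hε : thr < ε) (hthin : ∀ ω, 0 < Q.w ω → cp P X H ω ≤ thr) :
    Path.coll R (fun ω => X (π ω)) (fun ω => (H (π ω), e ω)) ≤
      ε + (kap Q P (RStar.reveal Q X H') H + (hc R e (fun ω => H (π ω)) -
        hc R e (fun ω => H' (π ω))) + 1) / Real.log (ε / thr) := by
  classical
  -- reference density on the extension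
  set rv : Ω → Option S := RStar.reveal Q X H' with hrv
  set g : Ω' → ℝ := fun ω => cp P rv H (π ω) with hg
  have hs : ∀ ω, 0 < R.w ω → 0 < Q.w (π ω) := fun ω hω => supp_of_law R Q π hR hω
  have hgpos : ∀ ω, 0 < R.w ω → 0 < g ω := fun ω hω => YPat.cp_pos rv H (hQP _ (hs ω hω))
  have hgthr : ∀ ω, 0 < R.w ω → g ω ≤ thr := fun ω hω =>
    (RStar.cp_reveal_le X H' H (hs ω hω)).trans (hthin _ (hs ω hω))
  -- `E (g / cp) ≤ 1`
  have h1 : R.ex (fun ω => g ω / Path.cp R (fun ω => X (π ω)) (fun ω => (H (π ω), e ω)) ω) ≤ 1 := by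
    set φ : S → T × U → ℝ := fun x y => P.pr (fun ω => (rv ω, H ω)) (some x, y.1) / P.pr H y.1
      with hφ
    have h2 := Path.ex_div_cp R (fun ω => X (π ω)) (fun ω => (H (π ω), e ω)) φ
      (fun x y => div_nonneg (P.pr_nonneg _ _) (P.pr_nonneg _ _))
    have h3 : R.ex (fun ω => g ω / Path.cp R (fun ω => X (π ω)) (fun ω => (H (π ω), e ω)) ω) =
        R.ex (fun ω => φ (X (π ω)) (H (π ω), e ω) /
          Path.cp R (fun ω => X (π ω)) (fun ω => (H (π ω), e ω)) ω) := by
      refine R.ex_congr fun ω hω => ?_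
      have h4 : rv (π ω) = some (X (π ω)) := RStar.reveal_supp Q X H' (hs ω hω)
      rw [hg, hφ]
      simp only
      unfold cp
      rw [h4]
    rw [h3]
    refine h2.trans ?_
    have h5 : ∑ x ∈ img (fun ω => X (π ω)), R.ex (fun ω => φ x (H (π ω), e ω)) =
        R.ex (fun ω => ∑ x ∈ img (fun ω => X (π ω)), φ x (H (π ω), e ω)) := by
      unfold Law.ex
      rw [Finset.sum_comm]
      exact Finset.sum_congr rfl fun ω _ => by rw [Finset.mul_sum]
    rw [h5]
    have h6 := R.ex_mono (f := fun ω => ∑ x ∈ img (fun ω => X (π ω)), φ x (H (π ω), e ω))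
      (g := fun _ => 1) (fun ω _ => by
        simp only [hφ]
        rw [← Finset.sum_div]
        refine div_le_one_of_le₀ ?_ (P.pr_nonneg _ _)
        have h7 := P.sum_pr_pair_le rv H (H (π ω)) ((img (fun ω => X (π ω))).image some)
        rwa [Finset.sum_image fun x _ y _ hxy => Option.some.inj hxy] at h7)
    rwa [R.ex_const] at h6
  have h2 := Path.coll_le R (fun ω => X (π ω)) (fun ω => (H (π ω), e ω)) g hgpos h1 ht hε
  have h3 : prE R (fun ω => thr < g ω) = 0 := by
    unfold prE
    refine Finset.sum_eq_zero fun ω hω => ?_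
    simp only [Finset.mem_filter] at hω
    by_contra hcon
    have h4 : 0 < R.w ω := lt_of_le_of_ne (R.nn ω) (Ne.symm hcon)
    exact absurd (hgthr ω h4) (not_le.2 hω.2)
  have hlog : 0 < Real.log (ε / thr) := Real.log_pos (by rwa [lt_div_iff₀ ht, one_mul])
  -- the divergence
  have h4 : R.ex (fun ω => Real.log (Path.cp R (fun ω => X (π ω)) (fun ω => (H (π ω), e ω)) ω) -
      Real.log (g ω)) = kap Q P rv H + (hc R (fun ω => X (π ω)) (fun ω => H (π ω)) -
        hc R (fun ω => X (π ω)) (fun ω => (H (π ω), e ω))) := by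
    have a1 : R.ex (fun ω => Real.log (g ω)) = Q.ex (fun ω => Real.log (cp P rv H ω)) :=
      ex_of_law R Q π hR fun ω => Real.log (cp P rv H ω)
    have a2 := Path.hc_eq R (fun ω => X (π ω)) (fun ω => (H (π ω), e ω))
    have a3 := Path.hc_eq Q X H
    have a4 : hc R (fun ω => X (π ω)) (fun ω => H (π ω)) = hc Q X H := hc_of_law R Q π hR X H
    have a5 : kap Q P rv H = Q.ex (fun ω => Real.log (cp Q X H ω)) -
        Q.ex (fun ω => Real.log (cp P rv H ω)) := by
      unfold kap
      rw [← Q.ex_sub]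
      refine Q.ex_congr fun ω hω => ?_
      rw [RStar.cp_reveal_eq X H' H hω]
    have a6 : Q.ex (fun ω => - Real.log (Path.cp Q X H ω)) =
        - Q.ex (fun ω => Real.log (cp Q X H ω)) := Q.ex_neg _
    rw [R.ex_sub, a1, a4, a5, a2, a3, a6, R.ex_neg]
    ring
  -- information
  have h5 : hc R (fun ω => X (π ω)) (fun ω => H (π ω)) -
      hc R (fun ω => X (π ω)) (fun ω => (H (π ω), e ω)) ≤
      hc R e (fun ω => H (π ω)) - hc R e (fun ω => H' (π ω)) := by
    have b1 := hc_pair R (fun ω => X (π ω)) e (fun ω => H (π ω))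
    have b2 := hc_pair R e (fun ω => X (π ω)) (fun ω => H (π ω))
    have b3 : hc R (fun ω => (X (π ω), e ω)) (fun ω => H (π ω)) =
        hc R (fun ω => (e ω, X (π ω))) (fun ω => H (π ω)) := by
      refine le_antisymm (hc_mono_left R ?_) (hc_mono_left R ?_)
      · intro ω ω' _ _ q
        simp only [Prod.mk.injEq] at q ⊢
        exact ⟨q.1.2, q.1.1⟩
      · intro ω ω' _ _ q
        simp only [Prod.mk.injEq] at q ⊢
        exact ⟨q.1.2, q.1.1⟩
    have b4 : hc R e (fun ω => H' (π ω)) ≤ hc R e (fun ω => (X (π ω), H (π ω))) :=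
      hc_mono_right R _ fun ω ω' hω hω' q => by
        obtain ⟨q1, q2⟩ := hX _ _ (hs ω hω) (hs ω' hω') q
        exact Prod.ext q1 q2
    have b5 : hc R (fun ω => X (π ω)) (fun ω => (e ω, H (π ω))) =
        hc R (fun ω => X (π ω)) (fun ω => (H (π ω), e ω)) := by
      refine le_antisymm (hc_mono_right R _ ?_) (hc_mono_right R _ ?_)
      · intro ω ω' _ _ q
        simp only [Prod.mk.injEq] at q ⊢
        exact ⟨q.2, q.1⟩
      · intro ω ω' _ _ q
        simp only [Prod.mk.injEq] at q ⊢
        exact ⟨q.2, q.1⟩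
    linarith
  rw [h3, h4] at h2
  refine h2.trans ?_
  have h6 : (kap Q P rv H + (hc R (fun ω => X (π ω)) (fun ω => H (π ω)) -
        hc R (fun ω => X (π ω)) (fun ω => (H (π ω), e ω))) + 1) / Real.log (ε / thr) ≤
      (kap Q P rv H + (hc R e (fun ω => H (π ω)) - hc R e (fun ω => H' (π ω))) + 1) /
        Real.log (ε / thr) := div_le_div_of_nonneg_right (by linarith) hlog.le
  linarith

end shapes

end Vale.Agent.P127.U.Rise
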