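import Vale.Agent.P127.U.H736.RiseA

/-!
# P127 / U / H736 : long runs of r-steps, abstract theorem (helper736)

`Win` : what is known about one window (one a-block, then `J` r-blocks) of the path of the law `Q` :
LIP for two copies given the past and the shape of a near-maximal label, on an extension `R` of `Q`.

* `rise` : the number of the steps which are followed by `M` r-steps.
-/

set_option autoImplicit false

namespace Vale.Agent.P127.U.Rise

open Finset Vale.Agent.P127 Vale.Agent.P127.Stk Vale.Agent.P127.U.YPat Vale.Agent.P127.U.Nonat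

variable {Ω : Type} [Fintype Ω] {T : Type*}

/-- one window : `H` past before the window, `H'` past after the window, `v` the slope, known to `r`
bits before the window and to `r'` bits after the window; `D = E' - E` increment, `S` the number of
bits of a block times `log 2`, `δ` half of the length of the run; two copies given the past and the
shape `e`; the information on the shape is refunded with the price `Λ` -/
def Win (Q : Law Ω) (H H' : Ω → T) (v : Ω → ℝ) (r r' δ : ℕ) (D S lam Λ cl : ℝ) : Prop :=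
  ∃ (Ω' : Type) (_ : Fintype Ω') (R : Law Ω') (π : Ω' → Ω) (U : Type) (e : Ω' → U),
    (∀ ω, R.pr π ω = Q.w ω) ∧
    D ≤ 2 * S + cl - lam * Real.log 2 * ((r' : ℝ) - r - δ) *
      max 0 (1 - 3 * Path.coll R (fun ω => fl1 (r + δ) (v (π ω))) (fun ω => (H (π ω), e ω))) -
      Λ * (hc R e (fun ω => H (π ω)) - hc R e (fun ω => H' (π ω)))

/-- the first digits are a function of more digits -/
theorem fl1_of_fl1 {r r' : ℕ} (h : r ≤ r') {x y : ℝ} (e : fl1 r' x = fl1 r' y) : fl1 r x = fl1 r y := by
  obtain ⟨d, rfl⟩ := Nat.exists_eq_add_of_le h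
  have key : ∀ z : ℝ, fl1 r z = fl1 (r + d) z / 2 ^ d := by
    intro z
    unfold fl1
    have h1 : (2 : ℝ) ^ r * z = ((2 : ℝ) ^ (r + d) * z) / ((2 ^ d : ℕ) : ℝ) := by
      push_cast
      rw [pow_add]
      field_simp
    have h2 := Int.floor_div_natCast ((2 : ℝ) ^ (r + d) * z) (2 ^ d)
    rw [h1, h2]
    norm_cast
  rw [key x, key y, e]

/-- gain of a good window -/
theorem good_num {J j m L lam κ x : ℝ} (hJ : 2 ≤ J) (hj : 2 * j ≤ J + 1) (hm : 0 ≤ m) (hL : 0 ≤ L)
    (hlam : 0 ≤ lam) (hκ : κ ≤ 1 / 6) (hx : x = (J - j) * m) :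
    lam / 8 * J * (m * L) ≤ lam * L * x * max 0 (1 - 3 * κ) := by
  have g1 : (1 : ℝ) / 2 ≤ max 0 (1 - 3 * κ) := le_trans (by linarith) (le_max_right _ _)
  have g2 : J / 4 * m ≤ x := by
    rw [hx]
    exact mul_le_mul_of_nonneg_right (by linarith) hm
  have g3 : 0 ≤ J / 4 * m := by positivity
  calc lam / 8 * J * (m * L) = lam * L * (J / 4 * m) * (1 / 2) := by ring
    _ ≤ lam * L * x * max 0 (1 - 3 * κ) := by
        refine mul_le_mul (mul_le_mul_of_nonneg_left g2 (by positivity)) g1 (by norm_num) ?_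
        exact mul_nonneg (by positivity) (g3.trans g2)

/-- cost of a bad window -/
theorem bad_num {c Λ lam J S I D g x T : ℝ} (hΛ : 0 < Λ) (hJ : 0 ≤ J) (hS : 0 ≤ S)
    (hc : 3 * lam ≤ Λ * c) (hx : J / 2 * S ≤ x) (hc0 : 0 ≤ c) (hT : T ≤ 4)
    (h1 : 1 / 12 * (c * x - T) < D + I + 1)
    (h2 : Λ * I ≤ g + 4 * S + lam / 16 * J * S) :
    c / 48 * J * S ≤ D + g / Λ + (2 + 4 * S / Λ) := by
  have g1 := mul_le_mul_of_nonneg_left hx hc0
  have g2 : c * (J / 2 * S) = c / 2 * (J * S) := by ring
  have g3 : I ≤ g / Λ + 4 * S / Λ + lam / 16 * J * S / Λ := by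
    rw [← add_div, ← add_div, le_div_iff₀ hΛ]
    linarith
  have g4 : lam / 16 * J * S / Λ ≤ c / 48 * (J * S) := by
    rw [div_le_iff₀ hΛ]
    have g5 : 0 ≤ J * S := mul_nonneg hJ hS
    have g6 := mul_le_mul_of_nonneg_right hc g5
    linarith
  have g5 : c / 48 * J * S = c / 48 * (J * S) := by ring
  rw [g5]
  linarith

/-- **RISE**, abstract form -/
theorem rise {P Q : Law Ω} {p : ℝ} (hp : 0 < p) (hd : ∀ ω, p * Q.w ω ≤ P.w ω)
    {a r : ℕ → ℕ} {n m : ℕ}
    (hstep : ∀ i < n, (a (i + 1) = a i + m ∧ r (i + 1) = r i) ∨ (a (i + 1) = a i ∧ r (i + 1) = r i + m))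
    (hm : 1 ≤ m) (H : ℕ → Ω → T)
    (hH : ∀ i i', i ≤ i' → ∀ ω ω', 0 < P.w ω → 0 < P.w ω' → H i' ω = H i' ω' → H i ω = H i ω')
    (v : Ω → ℝ) (hv : ∀ i ≤ n, ∀ ω ω', 0 < Q.w ω → 0 < P.w ω' → H i ω = H i ω' →
      fl1 (r i) (v ω) = fl1 (r i) (v ω'))
    {c lam Λ Del : ℝ} (hc0 : 0 < c) (hlam : 0 < lam) (hΛ : 0 < Λ)
    (hthin : ∀ i < n, a i < a (i + 1) → ∀ j, 1 ≤ j → r i + j * m ≤ r n → ∀ ω, 0 < Q.w ω →
      cp P (fun ω => fl1 (r i + j * m) (v ω)) (H i) ω ≤ Real.exp (-(c * (j * m * Real.log 2))))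
    (E W cl : ℕ → ℝ) (hW0 : ∀ k < nw a n, 0 ≤ W k)
    (hgap : ∀ k < nw a n, E (lo a n (k + 1)) - E (lo a n k) ≤ W k)
    (htot : ∑ k ∈ range (nw a n), W k ≤ E n - E (lo a n 0) + Del)
    (hwin : ∀ k < nw a n, 2 ≤ len a n k → Win Q (H (lo a n k)) (H (lo a n (k + 1))) v
      (r (lo a n k)) (r (lo a n (k + 1))) ((len a n k + 1) / 2 * m) (E (lo a n (k + 1)) - E (lo a n k))
      (m * Real.log 2) lam Λ (cl k))
    (hcl : ∀ k < nw a n, cl k ≤ 2 * (m * Real.log 2) + lam / 16 * len a n k * (m * Real.log 2))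
    {M : ℕ} (hM2 : 2 ≤ M) (hM : 128 ≤ lam * M) (hΛ1 : 3 * lam ≤ Λ * c) (hΛ2 : 768 ≤ Λ * c * M)
    (hM' : 384 ≤ c * M * (m * Real.log 2)) :
    (((range n).filter fun i => a (i + M) = a i).card : ℝ) ≤ lo a n 0 + M +
      (32 / (lam * (m * Real.log 2)) * Del +
        96 / (c * (m * Real.log 2)) * (Real.log (1 / p) + Del / Λ)) := by
  classical
  have hS : 0 < (m : ℝ) * Real.log 2 :=
    mul_pos (by exact_mod_cast hm) (Real.log_pos (by norm_num))
  set S : ℝ := (m : ℝ) * Real.log 2 with hSd
  have hQP : ∀ ω, 0 < Q.w ω → 0 < P.w ω := fun ω h => (mul_pos hp h).trans_le (hd ω)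
  have hmono : ∀ i < n, a i ≤ a (i + 1) := fun i hi => by
    rcases hstep i hi with h | h <;> omega
  have hrmono : ∀ i j, i ≤ j → j ≤ n → r i ≤ r j := by
    intro i j hij
    induction j, hij using Nat.le_induction with
    | base => exact fun _ => le_rfl
    | succ j _ ih =>
      intro h
      have := ih (by omega)
      rcases hstep j (by omega) with h1 | h1 <;> omega
  -- the slope along a window
  have hr : ∀ k < nw a n, r (lo a n (k + 1)) = r (lo a n k) + len a n k * m := by
    intro k hk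
    have h1 := lo_step hk
    have h2 := lo_lt hk
    have h3 : lo a n (k + 1) ≤ n := lo_le (by omega)
    have h4 := lo_succ (a := a) (n := n) k
    have key : ∀ i, lo a n k < i → i ≤ lo a n (k + 1) → r i = r (lo a n k) + (i - lo a n k - 1) * m := by
      intro i hi
      induction i, hi using Nat.le_induction with
      | base =>
        intro _
        have e0 : lo a n k + 1 - lo a n k - 1 = 0 := by omega
        rcases hstep (lo a n k) h2 with h5 | h5
        · show r (lo a n k + 1) = r (lo a n k) + (lo a n k + 1 - lo a n k - 1) * m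
          rw [e0, h5.2, Nat.zero_mul, Nat.add_zero]
        · omega
      | succ i hi ih =>
        intro hi'
        have h6 := ih (by omega)
        have h7 := not_st (show lo a n k < i by omega) (show i < lo a n (k + 1) by omega)
        have h8 : i + 1 - lo a n k - 1 = (i - lo a n k - 1) + 1 := by omega
        rcases hstep i (by omega) with h9 | h9
        · exfalso
          apply h7
          right
          omega
        · rw [h9.2, h6, h8]
          ring
    have h5 := key _ h4 le_rfl
    rw [h5]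
    unfold len
    rfl
  -- the halves of the runs
  set jj : ℕ → ℕ := fun k => (len a n k + 1) / 2 with hjj
  set X : ℕ → Ω → ℤ := fun k ω => fl1 (r (lo a n k) + jj k * m) (v ω) with hX
  have hjle : ∀ k, 1 ≤ len a n k → 1 ≤ jj k ∧ jj k ≤ len a n k ∧ len a n k ≤ 2 * jj k ∧
      2 * jj k ≤ len a n k + 1 := by
    intro k hk
    simp only [hjj]
    omega
  have hjle0 : ∀ k, jj k ≤ len a n k := by
    intro k
    simp only [hjj]
    omega
  have hXr : ∀ k < nw a n, r (lo a n k) + jj k * m ≤ r (lo a n (k + 1)) := by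
    intro k hk
    rw [hr k hk]
    have := Nat.mul_le_mul_right m (hjle0 k)
    omega
  have hXfn : ∀ k, k < nw a n → ∀ ω ω', 0 < Q.w ω → 0 < P.w ω' →
      H (lo a n (k + 1)) ω = H (lo a n (k + 1)) ω' → X k ω = X k ω' := by
    intro k hk ω ω' hω hω' e
    exact fl1_of_fl1 (hXr k hk) (hv _ (lo_le (by omega)) ω ω' hω hω' e)
  -- divergences
  set D : ℕ → ℝ := fun k => kap Q P (RStar.reveal Q (X k) (H (lo a n (k + 1)))) (H (lo a n k)) with hD
  have hDsum : ∑ k ∈ range (nw a n), D k ≤ Real.log (1 / p) :=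
    RStar.sum_reveal_le hp hd H hH (fun k => lo a n k) (fun k => lo a n (k + 1)) (nw a n)
      (fun k _ => (lo_succ k).le) (fun k _ => le_rfl) X hXfn
  have hD0 : ∀ k < nw a n, 0 ≤ D k := fun k _ => kap_nonneg hQP _ _
  -- the alternative
  have hdich : ∀ k < nw a n, M ≤ len a n k →
      (lam / 16 * len a n k * S ≤ (W k - (E (lo a n (k + 1)) - E (lo a n k))) + 4 * S ∨
        c / 48 * len a n k * S ≤ D k + (W k - (E (lo a n (k + 1)) - E (lo a n k))) / Λ +
          (2 + 4 * S / Λ)) := by
    intro k hk hJ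
    obtain ⟨Ω', _, R, π, U, e, h1, h3⟩ := hwin k hk (hM2.trans hJ)
    obtain ⟨j1, j2, j3, j4⟩ := hjle k (by omega)
    set I : ℝ := hc R e (fun ω => H (lo a n k) (π ω)) - hc R e (fun ω => H (lo a n (k + 1)) (π ω))
      with hIdef
    have hI0 : 0 ≤ I := by
      have : hc R e (fun ω => H (lo a n (k + 1)) (π ω)) ≤ hc R e (fun ω => H (lo a n k) (π ω)) :=
        hc_mono_right R _ fun ω ω' hω hω' q => hH _ _ (lo_succ k).le _ _
          (hQP _ (supp_of_law R Q π h1 hω)) (hQP _ (supp_of_law R Q π h1 hω')) q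
      linarith
    have hl2 : 0 < Real.log 2 := Real.log_pos (by norm_num)
    have g9 := hW0 k hk
    have g10 := hcl k hk
    have hJ2 : (2 : ℝ) ≤ len a n k := by exact_mod_cast hM2.trans hJ
    have h4 := h3
    rw [hr k hk] at h4
    set κ : ℝ := Path.coll R (fun ω => fl1 (r (lo a n k) + jj k * m) (v (π ω)))
      (fun ω => (H (lo a n k) (π ω), e ω)) with hκ
    by_cases hgood : κ ≤ 1 / 6
    · left
      -- good window
      have g8 := good_num (J := len a n k) (j := jj k) (m := m) (L := Real.log 2) (lam := lam)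
        (κ := κ) (x := ((r (lo a n k) + len a n k * m : ℕ) : ℝ) -
          (r (lo a n k) : ℝ) - ((jj k * m : ℕ) : ℝ)) hJ2 (by exact_mod_cast j4) (by positivity)
        hl2.le hlam.le hgood (by
          push_cast
          ring)
      have g12 := mul_nonneg hΛ.le hI0
      have g11 : lam / 8 * len a n k * S = lam / 16 * len a n k * S + lam / 16 * len a n k * S := by
        ring
      linarith
    · right
      -- bad window
      rw [not_le] at hgood
      have b1 : ∀ ω ω', 0 < Q.w ω → 0 < Q.w ω' → H (lo a n (k + 1)) ω = H (lo a n (k + 1)) ω' →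
          X k ω = X k ω' ∧ H (lo a n k) ω = H (lo a n k) ω' := fun ω ω' hω hω' q =>
        ⟨hXfn k hk ω ω' hω (hQP ω' hω') q,
          hH _ _ (lo_succ k).le ω ω' (hQP ω hω) (hQP ω' hω') q⟩
      set θ : ℝ := Real.exp (-(c * (jj k * m * Real.log 2))) with hθ
      have hθ0 : 0 < θ := Real.exp_pos _
      have b2 : ∀ ω, 0 < Q.w ω → cp P (X k) (H (lo a n k)) ω ≤ θ := fun ω hω =>
        hthin _ (lo_lt hk) (lo_step hk) (jj k) j1 ((hXr k hk).trans
          (hrmono _ _ (lo_le (by omega)) le_rfl)) ω hω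
      have hJ' : (len a n k : ℝ) ≤ 2 * jj k := by exact_mod_cast j3
      have hjS : (len a n k : ℝ) / 2 * S ≤ jj k * m * Real.log 2 := by
        have : (len a n k : ℝ) / 2 * S ≤ (jj k : ℝ) * S :=
          mul_le_mul_of_nonneg_right (by linarith) hS.le
        rw [hSd] at this ⊢
        linarith
      -- `log 12 ≤ 3`
      have hlog12 : Real.log 12 ≤ 4 := by
        have h5 : Real.log 12 ≤ Real.log ((2 : ℝ) ^ 4) := Real.log_le_log (by norm_num) (by norm_num)
        rw [Real.log_pow] at h5
        have := Real.log_two_lt_d9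
        push_cast at h5
        linarith
      have hMJ : (M : ℝ) ≤ len a n k := by exact_mod_cast hJ
      have hlen : 96 ≤ c * len a n k * S := by
        have := mul_le_mul_of_nonneg_right (mul_le_mul_of_nonneg_left hMJ hc0.le) hS.le
        linarith
      have b3 : 48 ≤ c * (jj k * m * Real.log 2) := by
        have := mul_le_mul_of_nonneg_left hjS hc0.le
        linarith
      have b4 : θ < 1 / 12 := by
        have h5 : Real.log (1 / 12) = - Real.log 12 := by rw [one_div, Real.log_inv]
        rw [← Real.log_lt_log_iff hθ0 (by norm_num), hθ, Real.log_exp, h5]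
        linarith
      have b5 := colp_shape_le hQP (X k) (H (lo a n k)) (H (lo a n (k + 1))) R π h1 e b1 hθ0 b4 b2
      have b6 : Real.log (1 / 12 / θ) = c * (jj k * m * Real.log 2) - Real.log 12 := by
        rw [Real.log_div (by norm_num) hθ0.ne', hθ, Real.log_exp, one_div, Real.log_inv]
        ring
      have b7 : 0 < Real.log (1 / 12 / θ) := by
        rw [b6]
        linarith
      have b8 : 1 / 12 < (D k + I + 1) / Real.log (1 / 12 / θ) := by
        have : κ ≤ 1 / 12 + (D k + I + 1) / Real.log (1 / 12 / θ) := b5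
        linarith
      rw [lt_div_iff₀ b7, b6] at b8
      -- the refund
      have g5 : (0 : ℝ) ≤ ((r (lo a n k) + len a n k * m : ℕ) : ℝ) -
          (r (lo a n k) : ℝ) - ((jj k * m : ℕ) : ℝ) := by
        push_cast
        have g3 : (jj k : ℝ) ≤ len a n k := by exact_mod_cast j2
        have g4 : (0 : ℝ) ≤ m := by positivity
        nlinarith
      have g6 : 0 ≤ lam * Real.log 2 * (((r (lo a n k) + len a n k * m : ℕ) : ℝ) -
          (r (lo a n k) : ℝ) - ((jj k * m : ℕ) : ℝ)) * max 0 (1 - 3 * κ) :=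
        mul_nonneg (mul_nonneg (mul_pos hlam hl2).le g5) (le_max_left _ _)
      exact bad_num hΛ (by positivity) hS.le hΛ1 hjS hc0.le hlog12 b8 (by linarith)
  have key := sum_runs_le (B := nw a n)
    (gap := fun k => W k - (E (lo a n (k + 1)) - E (lo a n k))) (D := D)
    (J := len a n) (M := M) (Del := Del) (Dtot := Real.log (1 / p)) (S := S) (μ := lam / 16)
    (cb := c / 48) (c1 := 2 + 4 * S / Λ) (cL := 4 * S) (N1 := Λ)
    (fun k hk => by linarith [hgap k hk])
    (by
      have h1 := sum_win (a := a) (n := n) E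
      have h2 : ∑ k ∈ range (nw a n), (E (lo a n (k + 1)) - E (lo a n k)) = E n - E (lo a n 0) := by
        have h3 : ∑ k ∈ range (nw a n), (E (lo a n (k + 1)) - E (lo a n k)) =
            - ∑ k ∈ range (nw a n), (E (lo a n k) - E (lo a n (k + 1))) := by
          rw [← Finset.sum_neg_distrib]
          exact Finset.sum_congr rfl fun k _ => by ring
        rw [h3, h1]
        ring
      rw [Finset.sum_sub_distrib, h2]
      linarith)
    hD0 hDsum hS (by positivity) (by positivity) hΛ hdich
    (by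
      have h1 : lam / 16 * M * S = (lam * M) / 16 * S := by ring
      rw [h1]
      have h2 : 8 * S ≤ (lam * M) / 16 * S := mul_le_mul_of_nonneg_right (by linarith) hS.le
      linarith)
    (by
      have h1 : c / 48 * M * S = (c * M * S) / 96 + (c * M * S) / 96 := by ring
      rw [h1]
      have h2 : 8 * S / Λ ≤ (c * M * S) / 96 := by
        rw [div_le_div_iff₀ hΛ (by norm_num)]
        have := mul_le_mul_of_nonneg_right hΛ2 hS.le
        linarith
      have h3 : 2 * (4 * S / Λ) = 8 * S / Λ := by ring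
      linarith)
  have h1 := card_runs_le (a := a) (n := n) hmono (M := M) (by omega)
  have h2 : (((range n).filter fun i => a (i + M) = a i).card : ℝ) ≤ lo a n 0 + M +
      ∑ k ∈ (range (nw a n)).filter (fun k => M ≤ len a n k), (len a n k : ℝ) := by
    exact_mod_cast h1
  refine h2.trans ?_
  have h3 : 2 / (lam / 16 * S) = 32 / (lam * S) := by
    field_simp
    norm_num
  have h4 : 2 / (c / 48 * S) = 96 / (c * S) := by
    field_simp
    norm_num
  rw [h3, h4] at key
  linarith

end Vale.Agent.P127.U.Rise
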