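import Vale.Agent.P127.U.H736.RiseB
import Vale.Agent.P127.U.H824.IncPath

/-!
# P127 / U / H736 : long runs of r-steps from the increments (helper736)

`Hist` : what is used of the path.  `P` law before the conditioning, `Q` after it, `K i` the past at
the step `i`; under `Q` the past is the line and the state.  `thin` at the a-steps.

* `win_of_lip` : `Incr.lip` gives `Win`.
* `rise_inc` : **RISE** for `Incr` and `Vc`.
-/

set_option autoImplicit false

namespace Vale.Agent.P127.U.Rise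

open Finset Vale.Agent.P127 Vale.Agent.P127.Stk Vale.Agent.P127.U Vale.Agent.P127.U.Inc
  Vale.Agent.P127.U.Mic Vale.Agent.P127.U.Bud Vale.Agent.P127.U.ActI

variable {Ω : Type} [Fintype Ω]

/-- the past along the path of `Q`; the slopes are thin up to the level `R` -/
structure Hist {T : Type*} (P Q : Law Ω) (p : ℝ) (l : Ω → Ln) (t v : Ω → ℝ) (n : ℕ) (α ρ : ℕ → ℕ)
    (m k R : ℕ) (c : ℝ) (K : ℕ → Ω → T) : Prop where
  pp : 0 < p
  dom : ∀ ω, p * Q.w ω ≤ P.w ω
  nest : ∀ i i', i ≤ i' → ∀ ω ω', 0 < P.w ω → 0 < P.w ω' → K i' ω = K i' ω' → K i ω = K i ω'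
  slope : ∀ i ≤ k, ∀ ω ω', 0 < Q.w ω → 0 < P.w ω' → K i ω = K i ω' →
    fl1 (ρ i) (v ω) = fl1 (ρ i) (v ω')
  eqv : ∀ i ≤ k, ∀ ω ω', 0 < Q.w ω → 0 < Q.w ω' →
    (K i ω = K i ω' ↔ (tb n (l ω), st t v (α i) (ρ i) ω) = (tb n (l ω'), st t v (α i) (ρ i) ω'))
  thin : ∀ i < k, α i < α (i + 1) → ∀ j, 1 ≤ j → ρ i + j * m ≤ R → ∀ ω, 0 < Q.w ω →
    Nonat.cp P (fun ω => fl1 (ρ i + j * m) (v ω)) (K i) ω ≤ Real.exp (-(c * (j * m * Real.log 2)))

/-- LIP gives `Win` -/
theorem win_of_lip {N lam β δ ε Λ B : ℝ} {Q : Law Ω} {l : Ω → Ln} {t v : Ω → ℝ} {n h q : ℕ}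
    {E : ℕ → ℕ → ℝ} (H : Incr N lam β δ ε Λ B Q l t v n h q E) {T : Type*} (H₀ H₁ : Ω → T)
    {a a' r r' δ' : ℕ} (ha : a ≤ a') (hh : a' ≤ h) (hr : r ≤ r') (hq : r' ≤ q) (hδ : r + δ' ≤ r')
    (h0 : ∀ ω ω', 0 < Q.w ω → 0 < Q.w ω' →
      (H₀ ω = H₀ ω' ↔ (tb n (l ω), st t v a r ω) = (tb n (l ω'), st t v a r ω')))
    (h1 : ∀ ω ω', 0 < Q.w ω → 0 < Q.w ω' →
      (H₁ ω = H₁ ω' ↔ (tb n (l ω), st t v a' r' ω) = (tb n (l ω'), st t v a' r' ω'))) :
    Win Q H₀ H₁ v r r' δ' (E a' r' - E a r) (((a' : ℝ) - a) * Real.log 2) lam Λ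
      (er ε B a a' r r') := by
  obtain ⟨Ω', i1, R, π, σ, hR, hL⟩ := H.lip a a' r r' δ' ha hh hr hq (by omega)
  have hs : ∀ ω, 0 < R.w ω → 0 < Q.w (π ω) := fun ω hω => supp_of_law R Q π hR hω
  refine ⟨Ω', i1, R, π, ℕ, σ, hR, ?_⟩
  -- the collisions
  have e1 : Path.coll R (fun ω => fl1 (r + δ') (v (π ω))) (fun ω => (H₀ (π ω), σ ω)) =
      colp R (fun ω => fl1 (r + δ') (v (π ω)))
        (fun ω => (tb n (l (π ω)), st t v a r (π ω), σ ω)) := by
    refine Mic.colp_congr R (X := fun ω => fl1 (r + δ') (v (π ω)))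
      (X' := fun ω => fl1 (r + δ') (v (π ω))) (Z := fun ω => (H₀ (π ω), σ ω))
      (Z' := fun ω => (tb n (l (π ω)), st t v a r (π ω), σ ω)) ?_ ?_ ?_ ?_
    · exact fun ω ω' _ _ e => congrArg Prod.fst e
    · exact fun ω ω' _ _ e => congrArg Prod.fst e
    · intro ω ω' hω hω' e
      simp only [Prod.mk.injEq] at e
      exact Prod.ext ((h0 _ _ (hs ω hω) (hs ω' hω')).2 (Prod.ext e.1 e.2.1)) e.2.2
    · intro ω ω' hω hω' e
      simp only [Prod.mk.injEq] at e
      have e2 := (h0 _ _ (hs ω hω) (hs ω' hω')).1 e.1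
      simp only [Prod.mk.injEq] at e2
      exact Prod.ext e2.1 (Prod.ext e2.2 e.2)
  -- the information
  have e2 : mi R (fun ω => st t v a' r' (π ω)) σ (fun ω => (tb n (l (π ω)), st t v a r (π ω))) =
      hc R σ (fun ω => H₀ (π ω)) - hc R σ (fun ω => H₁ (π ω)) := by
    rw [mi_symm]
    unfold mi
    congr 1
    · refine hc_congr R (fun ω ω' _ _ e => congrArg Prod.fst e)
        (fun ω ω' _ _ e => congrArg Prod.fst e) ?_ ?_
      · exact fun ω ω' hω hω' e => (h0 _ _ (hs ω hω) (hs ω' hω')).1 e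
      · exact fun ω ω' hω hω' e => (h0 _ _ (hs ω hω) (hs ω' hω')).2 e
    · refine hc_congr R (fun ω ω' _ _ e => congrArg Prod.fst e)
        (fun ω ω' _ _ e => congrArg Prod.fst e) ?_ ?_
      · intro ω ω' hω hω' e
        have e3 := (h1 _ _ (hs ω hω) (hs ω' hω')).1 e
        simp only [Prod.mk.injEq, st] at e3 ⊢
        exact ⟨e3.2, e3.1, fl1_of_fl1 ha e3.2.1, fl1_of_fl1 hr e3.2.2⟩
      · intro ω ω' hω hω' e
        simp only [Prod.mk.injEq] at e
        exact (h1 _ _ (hs ω hω) (hs ω' hω')).2 (Prod.ext e.2.1 e.1)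
  rw [e1, ← e2]
  have e4 : lam * ((r' : ℝ) - r - δ') * Real.log 2 = lam * Real.log 2 * ((r' : ℝ) - r - δ') := by ring
  rw [e4] at hL
  linarith

/-- **RISE** for the interface -/
theorem rise_inc {N lam β δ ε Λ B d : ℝ} {Q : Law Ω} {l : Ω → Ln} {t v : Ω → ℝ} {n h q : ℕ}
    {E : ℕ → ℕ → ℝ} (hN : 0 ≤ N) (hε : 0 ≤ ε) (hB : 0 ≤ B) (hβ : 0 ≤ β) (hΛ : 0 < Λ)
    (hlam : 0 < lam) (H : Incr N lam β δ ε Λ B Q l t v n h q E) (hV : Vc N lam β d Q l t v n h q)
    {α ρ : ℕ → ℕ} {m k : ℕ} (hb : Blks α ρ m k) (hp : Pl h q k α ρ) (hm : 1 ≤ m) (h0 : α 0 < α 1)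
    {T : Type*} {P : Law Ω} {p c : ℝ} {R : ℕ} {K : ℕ → Ω → T}
    (hK : Hist P Q p l t v n α ρ m k R c K) (hR : ρ k ≤ R) (hc0 : 0 < c) {M : ℕ} (hM2 : 2 ≤ M) (hM : 128 ≤ lam * M) (hΛ1 : 3 * lam ≤ Λ * c)
    (hΛ2 : 768 ≤ Λ * c * M) (hM' : 384 ≤ c * M * (m * Real.log 2)) (hε1 : ε ≤ lam / 16)
    (hε2 : ε ≤ 1) (hB1 : B ≤ m * Real.log 2) :
    (((range k).filter fun i => α (i + M) = α i).card : ℝ) ≤ M +
      (32 / (lam * (m * Real.log 2)) *
          (DELp N d ε B Q l t v n h q α ρ k + ε * (h + q) * Real.log 2 + k * B) +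
        96 / (c * (m * Real.log 2)) * (Real.log (1 / p) +
          (DELp N d ε B Q l t v n h q α ρ k + ε * (h + q) * Real.log 2 + k * B) / Λ)) := by
  classical
  have hl : 0 < Real.log 2 := Real.log_pos (by norm_num)
  have hS : 0 < (m : ℝ) * Real.log 2 := mul_pos (by exact_mod_cast hm) hl
  rcases Nat.eq_zero_or_pos k with hk0 | hk0
  · -- empty path
    subst hk0
    have hd := hK.dom
    have hp1 : p ≤ 1 := by
      have h1 : ∑ ω, p * Q.w ω ≤ ∑ ω, P.w ω := Finset.sum_le_sum fun ω _ => hd ω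
      rw [← Finset.mul_sum, Q.sum_one, P.sum_one, mul_one] at h1
      exact h1
    have h1 := end_ge (N := N) (β := β) hε H hp.ah hp.rq
    have h2 := bud_win hN hε H hV (sg := id) monotone_id rfl (M := 0) hp
    simp only [range_zero, sum_empty, id] at h2
    have h3 : 0 ≤ ε * (h + q) * Real.log 2 := by positivity
    have h4 : 0 ≤ Real.log (1 / p) := Real.log_nonneg (by
      rw [le_div_iff₀ hK.pp, one_mul]
      exact hp1)
    simp only [range_zero, filter_empty, card_empty, Nat.cast_zero, zero_mul, add_zero]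
    have h5 : 0 ≤ DELp N d ε B Q l t v n h q α ρ 0 + ε * (h + q) * Real.log 2 := by linarith
    have h6 : 0 ≤ 32 / (lam * (m * Real.log 2)) := by positivity
    have h7 : 0 ≤ 96 / (c * (m * Real.log 2)) := by positivity
    have h8 := mul_nonneg h6 h5
    have h9 := mul_nonneg h7 (add_nonneg h4 (div_nonneg h5 hΛ.le))
    have h10 : (0 : ℝ) ≤ M := Nat.cast_nonneg M
    linarith
  -- the first window starts at 0
  have hlo0 : lo α k 0 = 0 := by
    unfold lo
    rw [Nat.nth_zero]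
    exact Nat.sInf_eq_zero.2 (Or.inl (Or.inr h0))
  have hlok : lo α k (nw α k) = k := lo_nw
  have hwm : ∀ j < nw α k, α (lo α k (j + 1)) = α (lo α k j) + m := by
    intro j hj
    have hmono : ∀ i < k, α i ≤ α (i + 1) := fun i hi => by
      rcases hb i hi with h | h <;> omega
    rw [a_const hmono hj (lo_succ j) le_rfl]
    have h1 := lo_step hj
    rcases hb _ (lo_lt hj) with h2 | h2
    · exact h2.1
    · omega
  have hle : ∀ j ≤ nw α k, lo α k j ≤ k := fun j hj => lo_le hj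
  have hal : ∀ j ≤ nw α k, α (lo α k j) ≤ h := fun j hj => (hp.ma (hle j hj)).trans hp.ah
  have hrl : ∀ j ≤ nw α k, ρ (lo α k j) ≤ q := fun j hj => (hp.mr (hle j hj)).trans hp.rq
  have hamon : ∀ j, α (lo α k j) ≤ α (lo α k (j + 1)) := fun j => hp.ma (lo_succ j).le
  have hrmon : ∀ j, ρ (lo α k j) ≤ ρ (lo α k (j + 1)) := fun j => hp.mr (lo_succ j).le
  -- the functional and what the window inequality allows
  set F : ℕ → ℝ := fun i => E (α i) (ρ i) with hF
  set W : ℕ → ℝ := fun j => β * ((α (lo α k (j + 1)) : ℝ) - α (lo α k j)) * Real.log 2 +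
    N * (((α (lo α k (j + 1)) : ℝ) - α (lo α k j)) * Real.log 2 -
      hc Q (fun ω => fl1 (α (lo α k (j + 1))) (t ω))
        (fun ω => (tb n (l ω), st t v (α (lo α k j)) (ρ (lo α k j)) ω))) +
    er ε B (α (lo α k j)) (α (lo α k (j + 1))) (ρ (lo α k j)) (ρ (lo α k (j + 1))) with hW
  have her0 : ∀ j, 0 ≤ er ε B (α (lo α k j)) (α (lo α k (j + 1))) (ρ (lo α k j))
      (ρ (lo α k (j + 1))) := by
    intro j
    unfold er
    have h1 : (α (lo α k j) : ℝ) ≤ α (lo α k (j + 1)) := by exact_mod_cast hamon j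
    have h2 : (ρ (lo α k j) : ℝ) ≤ ρ (lo α k (j + 1)) := by exact_mod_cast hrmon j
    have h3 : 0 ≤ ε * (((α (lo α k (j + 1)) : ℝ) - α (lo α k j)) +
        ((ρ (lo α k (j + 1)) : ℝ) - ρ (lo α k j))) * Real.log 2 :=
      mul_nonneg (mul_nonneg hε (by linarith)) hl.le
    linarith
  have hW0 : ∀ j < nw α k, 0 ≤ W j := by
    intro j _
    have h1 : (α (lo α k j) : ℝ) ≤ α (lo α k (j + 1)) := by exact_mod_cast hamon j
    have h2 := hc_end_le Q l t v n (ρ (lo α k j)) (hamon j)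
    have h3 := mul_nonneg hN (sub_nonneg.2 h2)
    have h4 : 0 ≤ β * ((α (lo α k (j + 1)) : ℝ) - α (lo α k j)) * Real.log 2 :=
      mul_nonneg (mul_nonneg hβ (by linarith)) hl.le
    have h5 := her0 j
    simp only [hW]
    linarith
  have hgap : ∀ j < nw α k, F (lo α k (j + 1)) - F (lo α k j) ≤ W j := by
    intro j hj
    have h1 := H.win _ _ _ _ (hamon j) (hal (j + 1) hj) (hrmon j) (hrl (j + 1) hj)
    simp only [hW, hF]
    linarith
  have hmonlo : Monotone (lo α k) := lo_mono.monotone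
  have hbud := bud_win hN hε H hV (sg := lo α k) hmonlo hlo0 (M := nw α k) (by rwa [hlok])
  rw [hlok] at hbud
  have htot : ∑ j ∈ range (nw α k), W j ≤ F k - F (lo α k 0) +
      (DELp N d ε B Q l t v n h q α ρ k + ε * (h + q) * Real.log 2 + k * B) := by
    have h1 : ∑ j ∈ range (nw α k), W j = ∑ j ∈ range (nw α k),
        dft N β Q l t v n (α (lo α k j)) (ρ (lo α k j)) (α (lo α k (j + 1)))
          (E (α (lo α k (j + 1))) (ρ (lo α k (j + 1))) - E (α (lo α k j)) (ρ (lo α k j))) +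
        (∑ j ∈ range (nw α k), (F (lo α k (j + 1)) - F (lo α k j)) +
        ∑ j ∈ range (nw α k), er ε B (α (lo α k j)) (α (lo α k (j + 1))) (ρ (lo α k j))
          (ρ (lo α k (j + 1)))) := by
      rw [← Finset.sum_add_distrib, ← Finset.sum_add_distrib]
      refine Finset.sum_congr rfl fun j _ => ?_
      simp only [hW, hF]
      unfold dft
      ring
    have h2 : ∑ j ∈ range (nw α k), (F (lo α k (j + 1)) - F (lo α k j)) = F k - F (lo α k 0) := by
      have h3 := Finset.sum_range_sub (fun j => F (lo α k j)) (nw α k)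
      rw [hlok] at h3
      exact h3
    have h4 : ∑ j ∈ range (nw α k), er ε B (α (lo α k j)) (α (lo α k (j + 1))) (ρ (lo α k j))
        (ρ (lo α k (j + 1))) ≤ ε * (h + q) * Real.log 2 + k * B := by
      have h5 : ∑ j ∈ range (nw α k), er ε B (α (lo α k j)) (α (lo α k (j + 1))) (ρ (lo α k j))
          (ρ (lo α k (j + 1))) = ε * (((α k : ℝ) - α 0) + ((ρ k : ℝ) - ρ 0)) * Real.log 2 +
            nw α k * B := by
        have g1 := Finset.sum_range_sub (fun j => ((α (lo α k j) : ℕ) : ℝ)) (nw α k)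
        have g2 := Finset.sum_range_sub (fun j => ((ρ (lo α k j) : ℕ) : ℝ)) (nw α k)
        rw [hlok, hlo0] at g1 g2
        rw [← g1, ← g2, ← Finset.sum_add_distrib, Finset.mul_sum, Finset.sum_mul]
        unfold er
        rw [Finset.sum_add_distrib, Finset.sum_const, card_range, nsmul_eq_mul]
      rw [h5]
      have h6 : (α k : ℝ) ≤ h := by exact_mod_cast hp.ah
      have h7 : (ρ k : ℝ) ≤ q := by exact_mod_cast hp.rq
      have h8 : (0 : ℝ) ≤ α 0 := Nat.cast_nonneg _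
      have h9 : (0 : ℝ) ≤ ρ 0 := Nat.cast_nonneg _
      have h10 : ε * (((α k : ℝ) - α 0) + ((ρ k : ℝ) - ρ 0)) * Real.log 2 ≤
          ε * (h + q) * Real.log 2 :=
        mul_le_mul_of_nonneg_right (mul_le_mul_of_nonneg_left (by linarith) hε) hl.le
      have h11 : (nw α k : ℝ) * B ≤ k * B :=
        mul_le_mul_of_nonneg_right (by exact_mod_cast nw_le) hB
      linarith
    rw [h1, h2]
    linarith
  -- the slope along a window
  have hlen : ∀ j < nw α k, ρ (lo α k (j + 1)) = ρ (lo α k j) + len α k j * m := by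
    intro j hj
    have key : ∀ i, lo α k j < i → i ≤ lo α k (j + 1) → ρ i = ρ (lo α k j) + (i - lo α k j - 1) * m := by
      intro i hi
      induction i, hi using Nat.le_induction with
      | base =>
        intro _
        have e0 : lo α k j + 1 - lo α k j - 1 = 0 := by omega
        have h1 := lo_step hj
        rcases hb (lo α k j) (lo_lt hj) with h5 | h5
        · show ρ (lo α k j + 1) = ρ (lo α k j) + (lo α k j + 1 - lo α k j - 1) * m
          rw [e0, h5.2, Nat.zero_mul, Nat.add_zero]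
        · omega
      | succ i hi ih =>
        intro hi'
        have h6 := ih (by omega)
        have h7 := not_st (show lo α k j < i by omega) (show i < lo α k (j + 1) by omega)
        have h8 : i + 1 - lo α k j - 1 = (i - lo α k j - 1) + 1 := by omega
        have h10 := hle (j + 1) hj
        rcases hb i (by omega) with h9 | h9
        · exfalso
          apply h7
          right
          omega
        · rw [h9.2, h6, h8]
          ring
    have h5 := key _ (lo_succ j) le_rfl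
    rw [h5]
    unfold len
    rfl
  have hwin : ∀ j < nw α k, 2 ≤ len α k j → Win Q (K (lo α k j)) (K (lo α k (j + 1))) v
      (ρ (lo α k j)) (ρ (lo α k (j + 1))) ((len α k j + 1) / 2 * m)
      (F (lo α k (j + 1)) - F (lo α k j)) (m * Real.log 2) lam Λ
      (er ε B (α (lo α k j)) (α (lo α k (j + 1))) (ρ (lo α k j)) (ρ (lo α k (j + 1)))) := by
    intro j hj hj2
    have h1 := win_of_lip H (K (lo α k j)) (K (lo α k (j + 1))) (δ' := (len α k j + 1) / 2 * m)
      (hamon j) (hal (j + 1) hj) (hrmon j) (hrl (j + 1) hj) (by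
        rw [hlen j hj]
        have : (len α k j + 1) / 2 ≤ len α k j := by omega
        have := Nat.mul_le_mul_right m this
        omega) (hK.eqv _ (hle j hj.le)) (hK.eqv _ (hle (j + 1) hj))
    have e : ((α (lo α k (j + 1)) : ℝ) - α (lo α k j)) = m := by
      rw [hwm j hj]
      push_cast
      ring
    rw [e] at h1
    exact h1
  have hcl : ∀ j < nw α k, er ε B (α (lo α k j)) (α (lo α k (j + 1))) (ρ (lo α k j))
      (ρ (lo α k (j + 1))) ≤ 2 * (m * Real.log 2) + lam / 16 * len α k j * (m * Real.log 2) := by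
    intro j hj
    unfold er
    rw [hwm j hj, hlen j hj]
    push_cast
    have h1 : ε * (m * Real.log 2) ≤ 1 * (m * Real.log 2) := mul_le_mul_of_nonneg_right hε2 hS.le
    have h2 : ε * (len α k j * (m * Real.log 2)) ≤ lam / 16 * (len α k j * (m * Real.log 2)) :=
      mul_le_mul_of_nonneg_right hε1 (by positivity)
    linarith
  have key := rise hK.pp hK.dom (a := α) (r := ρ) hb hm K hK.nest v hK.slope hc0 hlam hΛ
    (fun i hi hs j hj hjr ω hω => hK.thin i hi hs j hj (hjr.trans hR) ω hω) F W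
    (fun j => er ε B (α (lo α k j)) (α (lo α k (j + 1))) (ρ (lo α k j)) (ρ (lo α k (j + 1))))
    hW0 hgap htot hwin hcl hM2 hM hΛ1 hΛ2 hM'
  rw [hlo0] at key
  simpa using key

end Vale.Agent.P127.U.Rise
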