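import Vale.Agent.P127.U.H736.RiseC
import Vale.Agent.P127.U.PathD

/-!
# P127 / U / H736 : long runs along 823's path (helper736)

* `hist_of_pd` : `Rise.Hist` for a shifted and cut path, from `PathD.Pd`.
* `runs_pd` : the field `runs` of `Mic.Hyp`, with plain numerical hypotheses.
-/

set_option autoImplicit false

namespace Vale.Agent.P127.U.Rise

open Finset Vale.Agent.P127 Vale.Agent.P127.Stk Vale.Agent.P127.U Vale.Agent.P127.U.Inc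
  Vale.Agent.P127.U.Mic Vale.Agent.P127.U.Bud Vale.Agent.P127.U.ActI Vale.Agent.P127.U.PathD

variable {Ω : Type} [Fintype Ω]

theorem hist_of_pd {P Q : Law Ω} {l : Ω → Ln} {t v : Ω → ℝ} {n m A R J : ℕ} {c p : ℝ}
    {α₀ ρ₀ : ℕ → ℕ} {T : Type} {H : ℕ → Ω → T} (hP : Pd P Q l t v n m A R J c p α₀ ρ₀ H)
    {i₀ k : ℕ} (hik : i₀ + k ≤ A + R) {α ρ : ℕ → ℕ} (hα : ∀ i ≤ k, α i = α₀ (i₀ + i))
    (hρ : ∀ i ≤ k, ρ i = ρ₀ (i₀ + i)) :
    Hist P Q p l t v n α ρ m k (m * R) c (fun i => H (i₀ + i)) := by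
  refine ⟨hP.hp, hP.dom, ?_, ?_, ?_, ?_⟩
  · intro i i' hi ω ω' _ _ e
    exact hP.hH _ _ (by omega) ω ω' e
  · intro i hi ω ω' hω _ e
    have h1 := (hP.hk (i₀ + i) (by omega) ω ω' hω e).2
    rw [hρ i hi]
    exact (Prod.mk.inj h1).2
  · intro i hi ω ω' hω hω'
    rw [hα i hi, hρ i hi]
    constructor
    · intro e
      obtain ⟨h1, h2⟩ := hP.hk (i₀ + i) (by omega) ω ω' hω e
      exact Prod.ext h1 h2
    · intro e
      obtain ⟨h1, h2⟩ := Prod.mk.inj e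
      exact hP.HQ (i₀ + i) (by omega) ω ω' hω hω' h1 h2
  · intro i hi ha j hj hR ω hω
    rw [hα i hi.le, hα (i + 1) hi] at ha
    rw [hρ i hi.le] at hR ⊢
    exact hP.thin (i₀ + i) (by omega) ha j hj hR ω hω

theorem blks_of_pd {P Q : Law Ω} {l : Ω → Ln} {t v : Ω → ℝ} {n m A R J : ℕ} {c p : ℝ}
    {α₀ ρ₀ : ℕ → ℕ} {T : Type} {H : ℕ → Ω → T} (hP : Pd P Q l t v n m A R J c p α₀ ρ₀ H)
    {i₀ k : ℕ} (hik : i₀ + k ≤ A + R) {α ρ : ℕ → ℕ} (hα : ∀ i ≤ k, α i = α₀ (i₀ + i))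
    (hρ : ∀ i ≤ k, ρ i = ρ₀ (i₀ + i)) : Blks α ρ m k := by
  intro i hi
  rw [hα i hi.le, hα (i + 1) hi, hρ i hi.le, hρ (i + 1) hi]
  exact hP.step (i₀ + i) (by omega)

/-- **RISE** : the field `runs` of `Mic.Hyp` for the path of `PathD.Pd`, started at the step `i₀` (the
first step of the time) and cut after `k` steps -/
theorem runs_pd {N lam β δ ε Λ B d : ℝ} {P Q : Law Ω} {l : Ω → Ln} {t v : Ω → ℝ} {n h q : ℕ}
    {E : ℕ → ℕ → ℝ} (hN : 0 ≤ N) (hε : 0 ≤ ε) (hB : 0 ≤ B) (hβ : 0 ≤ β) (hΛ : 0 < Λ)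
    (hlam : 0 < lam) (H : Incr N lam β δ ε Λ B Q l t v n h q E) (hV : Vc N lam β d Q l t v n h q)
    {m A R J : ℕ} {c p : ℝ} {α₀ ρ₀ : ℕ → ℕ} {T : Type} {K : ℕ → Ω → T}
    (hP : Pd P Q l t v n m A R J c p α₀ ρ₀ K) (hm : 1 ≤ m) (hc0 : 0 < c)
    {i₀ k : ℕ} (hik : i₀ + k ≤ A + R) {α ρ : ℕ → ℕ} (hα : ∀ i ≤ k, α i = α₀ (i₀ + i))
    (hρ : ∀ i ≤ k, ρ i = ρ₀ (i₀ + i)) (hp : Pl h q k α ρ) (h0 : α₀ i₀ < α₀ (i₀ + 1))
    {M : ℕ} (hM2 : 2 ≤ M) (hM : 128 ≤ lam * M) (hΛ1 : 3 * lam ≤ Λ * c)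
    (hΛ2 : 768 ≤ Λ * c * M) (hM' : 384 ≤ c * M * (m * Real.log 2)) (hε1 : ε ≤ lam / 16)
    (hB1 : B ≤ m * Real.log 2) (hlam1 : lam ≤ 1) {X Lp ε₁ : ℝ}
    (hX : DELp N d ε B Q l t v n h q α ρ k + ε * (h + q) * Real.log 2 + k * B ≤ X)
    (hLp : Real.log (1 / p) ≤ Lp)
    (hnum : M + (32 / (lam * (m * Real.log 2)) * X + 96 / (c * (m * Real.log 2)) * (Lp + X / Λ)) ≤
      ε₁ * k) :
    (((range k).filter fun i => α (i + M) = α i).card : ℝ) ≤ ε₁ * k := by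
  rcases Nat.eq_zero_or_pos k with hk | hk
  · subst hk
    simp
  have hl : 0 < Real.log 2 := Real.log_pos (by norm_num)
  have hS : 0 < (m : ℝ) * Real.log 2 := mul_pos (by exact_mod_cast hm) hl
  have hb := blks_of_pd hP hik hα hρ
  have h00 : α 0 < α 1 := by
    rw [hα 0 hk.le, hα 1 hk]
    exact h0
  have hR : ρ k ≤ m * R := by
    rw [hρ k le_rfl, ← hP.r1]
    exact hP.mr hik
  have key := rise_inc hN hε hB hβ hΛ hlam H hV hb hp hm h00 (hist_of_pd hP hik hα hρ) hR hc0 hM2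
    hM hΛ1 hΛ2 hM' hε1 (hε1.trans (by linarith)) hB1
  refine key.trans (le_trans ?_ hnum)
  have h1 : 0 ≤ 32 / (lam * (m * Real.log 2)) := by positivity
  have h2 : 0 ≤ 96 / (c * (m * Real.log 2)) := by positivity
  have h3 := mul_le_mul_of_nonneg_left hX h1
  have h4 := mul_le_mul_of_nonneg_left
    (add_le_add hLp (div_le_div_of_nonneg_right hX hΛ.le)) h2
  linarith

end Vale.Agent.P127.U.Rise
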